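import Vale.Agent.H92.P344.Defs

/-!
# Linearity of circuit evaluation, and the passage from values to linear forms
-/

namespace Vale.Agent.H92.P344

open Finset

section Linear

variable {M N : Type*} [AddCommGroup M] [Module ℂ M] [AddCommGroup N] [Module ℂ N]

theorem getD_map_zero (φ : M →ₗ[ℂ] N) (vals : List M) (i : ℕ) :
    (vals.map φ).getD i 0 = φ (vals.getD i 0) := by
  rw [List.getD_eq_getElem?_getD, List.getD_eq_getElem?_getD, List.getElem?_map]
  cases h : vals[i]? with
  | none => simp
  | some a => simp

theorem Gate.eval_map (φ : M →ₗ[ℂ] N) (vals : List M) (g : Gate) :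
    g.eval (vals.map φ) = φ (g.eval vals) := by
  cases g <;> simp only [Gate.eval, getD_map_zero, map_add, map_sub, map_smul]

theorem run_map (φ : M →ₗ[ℂ] N) (C : List Gate) (vals : List M) :
    run C (vals.map φ) = (run C vals).map φ := by
  induction C generalizing vals with
  | nil => rfl
  | cons g gs ih =>
    simp only [run]
    rw [← ih]
    simp [Gate.eval_map]

theorem subset_run (C : List Gate) (vals : List M) : ∀ f ∈ vals, f ∈ run C vals := by
  induction C generalizing vals with
  | nil => intro f hf; exact hf
  | cons g gs ih =>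
    intro f hf
    simp only [run]
    exact ih _ f (List.mem_append_left _ hf)

end Linear

/-- The primitive `n`-th root of unity `e^{2πi/n}`. -/
noncomputable def zeta (n : ℕ) : ℂ := Complex.exp (2 * Real.pi * Complex.I / n)

/-- Row `j` of the Fourier matrix `F_n`, as a coefficient vector. -/
noncomputable def row (n : ℕ) (j : Fin n) : Fin n → ℂ := fun k => zeta n ^ ((j : ℕ) * (k : ℕ))

/-- The initial nodes as linear forms: the coordinate forms, then the zero form. -/
noncomputable def init (n : ℕ) : List (Fin n → ℂ) :=
  List.ofFn (fun k : Fin n => (Pi.single k 1 : Fin n → ℂ)) ++ [0]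

/-- Evaluation of a linear form at the point `x`. -/
noncomputable def evalAt {n : ℕ} (x : Fin n → ℂ) : (Fin n → ℂ) →ₗ[ℂ] ℂ :=
  ∑ k : Fin n, x k • LinearMap.proj k

theorem evalAt_apply {n : ℕ} (x f : Fin n → ℂ) : evalAt x f = ∑ k : Fin n, x k * f k := by
  simp [evalAt, LinearMap.sum_apply]

theorem evalAt_single {n : ℕ} (x : Fin n → ℂ) (k : Fin n) : evalAt x (Pi.single k 1) = x k := by
  rw [evalAt_apply]
  rw [Finset.sum_eq_single k]
  · simp
  · intro b _ hb
    simp [hb]
  · intro h; exact absurd (Finset.mem_univ k) h

theorem init_map {n : ℕ} (x : Fin n → ℂ) : (init n).map (evalAt x) = List.ofFn x ++ [0] := by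
  unfold init
  rw [List.map_append, List.map_ofFn]
  congr 1
  · congr 1
    funext k
    simp [evalAt_single]
  · simp

/-- If a circuit computes `F_n` on all inputs then every row of `F_n` occurs among the linear
forms computed by the circuit. -/
theorem rows_mem_of_computes (n : ℕ) (C : List Gate) (out : Fin n → ℕ)
    (h : ∀ (x : Fin n → ℂ) (j : Fin n),
      (run C (List.ofFn x ++ [0]))[out j]? =
        some (∑ k : Fin n, zeta n ^ ((j : ℕ) * (k : ℕ)) * x k)) :
    ∀ j : Fin n, row n j ∈ run C (init n) := by
  intro j
  have h1 : ∀ x : Fin n → ℂ, ((run C (init n)).map (evalAt x))[out j]? =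
      some (∑ k : Fin n, zeta n ^ ((j : ℕ) * (k : ℕ)) * x k) := by
    intro x
    rw [← run_map, init_map]
    exact h x j
  cases hf : (run C (init n))[out j]? with
  | none =>
    have := h1 0
    rw [List.getElem?_map, hf] at this
    simp at this
  | some f =>
    have h2 : ∀ x : Fin n → ℂ, evalAt x f = ∑ k : Fin n, zeta n ^ ((j : ℕ) * (k : ℕ)) * x k := by
      intro x
      have := h1 x
      rw [List.getElem?_map, hf] at this
      simpa using this
    have h3 : f = row n j := by
      funext k
      have := h2 (Pi.single k 1)
      rw [evalAt_apply] at this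
      rw [Finset.sum_eq_single k, Finset.sum_eq_single k] at this
      · simpa [row] using this
      · intro b _ hb; simp [hb]
      · intro hk; exact absurd (Finset.mem_univ k) hk
      · intro b _ hb; simp [hb]
      · intro hk; exact absurd (Finset.mem_univ k) hk
    rw [← h3]
    exact List.mem_of_getElem? hf

end Vale.Agent.H92.P344
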