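import Vale.Agent.H92.P344.Basic

/-!
# At least `2n - 2` addition/subtraction gates

A colouring argument: the supports of all forms computed so far are monochromatic for a colouring
of the inputs; an addition/subtraction gate destroys at most one colour, a scalar gate none.
A form proportional to a row of `F_n` has full support, and distinct rows are not proportional.
-/

namespace Vale.Agent.H92.P344

open Finset

theorem zeta_isPrimitiveRoot (n : ℕ) (hn : n ≠ 0) : IsPrimitiveRoot (zeta n) n :=
  Complex.isPrimitiveRoot_exp n hn

theorem zeta_ne_zero (n : ℕ) : zeta n ≠ 0 := Complex.exp_ne_zero _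

theorem row_apply_ne_zero (n : ℕ) (j k : Fin n) : row n j k ≠ 0 :=
  pow_ne_zero _ (zeta_ne_zero n)

theorem row_smul_inj (n : ℕ) (j j' : Fin n) (a a' : ℂ) (ha : a ≠ 0)
    (h : a • row n j = a' • row n j') : j = j' := by
  have hn : n ≠ 0 := fun h0 => by subst h0; exact j.elim0
  rcases Nat.lt_or_ge 1 n with h1 | h1
  · have e0 := congrFun h ⟨0, by omega⟩
    have e1 := congrFun h ⟨1, h1⟩
    simp only [Pi.smul_apply, row, smul_eq_mul, Nat.mul_zero, pow_zero, mul_one] at e0 e1
    rw [← e0] at e1
    have e2 : zeta n ^ (j : ℕ) = zeta n ^ (j' : ℕ) := mul_left_cancel₀ ha e1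
    exact Fin.ext ((zeta_isPrimitiveRoot n hn).pow_inj j.isLt j'.isLt e2)
  · have : n = 1 := by omega
    subst this
    exact Subsingleton.elim _ _

/-- The support of `f` is monochromatic for the colouring `κ`. -/
def Mono {n : ℕ} (κ : Fin n → Fin n) (f : Fin n → ℂ) : Prop :=
  ∀ k l, f k ≠ 0 → f l ≠ 0 → κ k = κ l

/-- Some form in the list is a nonzero multiple of row `j`. -/
def RowPresent (n : ℕ) (vals : List (Fin n → ℂ)) (j : Fin n) : Prop :=
  ∃ f ∈ vals, ∃ a : ℂ, a ≠ 0 ∧ f = a • row n j

/-- The invariant of the colouring argument. -/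
def Inv (n : ℕ) (vals : List (Fin n → ℂ)) (b : ℕ) : Prop :=
  ∃ (κ : Fin n → Fin n) (T : Finset (Fin n)),
    (∀ f ∈ vals, Mono κ f) ∧ (∀ j, RowPresent n vals j → j ∈ T) ∧
    2 * n ≤ (univ.image κ).card + min (n - T.card) (n - 1) + b + 1

theorem getD_zero_or_mem {M : Type*} [Zero M] (vals : List M) (i : ℕ) :
    vals.getD i 0 = 0 ∨ vals.getD i 0 ∈ vals := by
  rw [List.getD_eq_getElem?_getD]
  cases h : vals[i]? with
  | none => left; rfl
  | some a => right; exact List.mem_of_getElem? h

open Classical in
theorem card_filter_row_le_one (n : ℕ) (f : Fin n → ℂ) :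
    (univ.filter (fun j : Fin n => ∃ a : ℂ, a ≠ 0 ∧ f = a • row n j)).card ≤ 1 := by
  rw [Finset.card_le_one]
  intro j hj j' hj'
  simp only [mem_filter, mem_univ, true_and] at hj hj'
  obtain ⟨a, ha, h1⟩ := hj
  obtain ⟨a', _, h2⟩ := hj'
  exact row_smul_inj n j j' a a' ha (h1.symm.trans h2)

theorem inv_step_binary (n : ℕ) (vals : List (Fin n → ℂ)) (b : ℕ) (u v f : Fin n → ℂ)
    (hu : u = 0 ∨ u ∈ vals) (hv : v = 0 ∨ v ∈ vals)
    (hf : ∀ k, f k ≠ 0 → u k ≠ 0 ∨ v k ≠ 0)
    (h : Inv n vals b) : Inv n (vals ++ [f]) (b + 1) := by
  classical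
  obtain ⟨κ, T, hmono, hT, hineq⟩ := h
  have hmu : Mono κ u := by
    rcases hu with rfl | hu
    · intro k l hk; exact absurd rfl hk
    · exact hmono u hu
  have hmv : Mono κ v := by
    rcases hv with rfl | hv
    · intro k l hk; exact absurd rfl hk
    · exact hmono v hv
  by_cases hc : ∀ k l, u k ≠ 0 → v l ≠ 0 → κ k = κ l
  · -- the two supports already have the same colour
    refine ⟨κ, T ∪ univ.filter (fun j : Fin n => ∃ a : ℂ, a ≠ 0 ∧ f = a • row n j), ?_, ?_, ?_⟩
    · intro f' hf'
      rcases List.mem_append.1 hf' with hf' | hf'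
      · exact hmono f' hf'
      · rw [List.mem_singleton] at hf'
        subst hf'
        intro k l hk hl
        rcases hf k hk with hk | hk <;> rcases hf l hl with hl | hl
        · exact hmu k l hk hl
        · exact hc k l hk hl
        · exact (hc l k hl hk).symm
        · exact hmv k l hk hl
    · rintro j ⟨f', hf', a, ha, hfa⟩
      rcases List.mem_append.1 hf' with hf' | hf'
      · exact mem_union_left _ (hT j ⟨f', hf', a, ha, hfa⟩)
      · rw [List.mem_singleton] at hf'
        subst hf'
        exact mem_union_right _ (by simpa using ⟨a, ha, hfa⟩)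
    · have h1 := card_filter_row_le_one n f
      have h2 := Finset.card_union_le T
        (univ.filter (fun j : Fin n => ∃ a : ℂ, a ≠ 0 ∧ f = a • row n j))
      omega
  · -- the two supports have different colours: merge the two colours
    push Not at hc
    obtain ⟨k0, l0, hk0, hl0, hne⟩ := hc
    refine ⟨fun k => if κ k = κ l0 then κ k0 else κ k,
      univ.filter (fun j : Fin n => ∃ a : ℂ, a ≠ 0 ∧ f = a • row n j), ?_, ?_, ?_⟩
    · intro f' hf'
      rcases List.mem_append.1 hf' with hf' | hf'
      · intro k l hk hl
        have := hmono f' hf' k l hk hl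
        simp only [this]
      · rw [List.mem_singleton] at hf'
        subst hf'
        have key : ∀ k, f' k ≠ 0 → (if κ k = κ l0 then κ k0 else κ k) = κ k0 := by
          intro k hk
          rcases hf k hk with hk | hk
          · have e : κ k = κ k0 := hmu k k0 hk hk0
            rw [e, if_neg hne]
          · have e : κ k = κ l0 := hmv k l0 hk hl0
            rw [if_pos e]
        intro k l hk hl
        show (if κ k = κ l0 then κ k0 else κ k) = (if κ l = κ l0 then κ k0 else κ l)
        rw [key k hk, key l hl]
    · rintro j ⟨f', hf', a, ha, hfa⟩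
      rcases List.mem_append.1 hf' with hf' | hf'
      · exfalso
        apply hne
        apply hmono f' hf' k0 l0
        · rw [hfa]; exact mul_ne_zero ha (row_apply_ne_zero n j k0)
        · rw [hfa]; exact mul_ne_zero ha (row_apply_ne_zero n j l0)
      · rw [List.mem_singleton] at hf'
        subst hf'
        simpa using ⟨a, ha, hfa⟩
    · have h1 := card_filter_row_le_one n f
      have h2 : (univ.image κ).card ≤
          (univ.image (fun k => if κ k = κ l0 then κ k0 else κ k)).card + 1 := by
        calc (univ.image κ).card
            ≤ (insert (κ l0) (univ.image (fun k => if κ k = κ l0 then κ k0 else κ k))).card := by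
              apply Finset.card_le_card
              intro c hc
              rw [mem_image] at hc
              obtain ⟨k, _, rfl⟩ := hc
              by_cases e : κ k = κ l0
              · rw [e]; exact mem_insert_self _ _
              · apply mem_insert_of_mem
                rw [mem_image]
                exact ⟨k, mem_univ _, by rw [if_neg e]⟩
          _ ≤ _ := Finset.card_insert_le _ _
      omega

theorem inv_step_scalar (n : ℕ) (vals : List (Fin n → ℂ)) (b : ℕ) (u : Fin n → ℂ) (c : ℂ)
    (hu : u = 0 ∨ u ∈ vals)
    (h : Inv n vals b) : Inv n (vals ++ [c • u]) b := by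
  obtain ⟨κ, T, hmono, hT, hineq⟩ := h
  refine ⟨κ, T, ?_, ?_, hineq⟩
  · intro f' hf'
    rcases List.mem_append.1 hf' with hf' | hf'
    · exact hmono f' hf'
    · rw [List.mem_singleton] at hf'
      subst hf'
      rcases hu with rfl | hu
      · intro k l hk; simp at hk
      · intro k l hk hl
        apply hmono u hu k l
        · intro h0; apply hk; simp [h0]
        · intro h0; apply hl; simp [h0]
  · rintro j ⟨f', hf', a, ha, hfa⟩
    rcases List.mem_append.1 hf' with hf' | hf'
    · exact hT j ⟨f', hf', a, ha, hfa⟩
    · rw [List.mem_singleton] at hf'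
      subst hf'
      have hne : c • u ≠ 0 := by
        intro h0
        have := congrFun hfa j
        rw [h0] at this
        simp only [Pi.zero_apply, Pi.smul_apply, smul_eq_mul] at this
        exact mul_ne_zero ha (row_apply_ne_zero n j j) this.symm
      have hc : c ≠ 0 := by
        intro h0; apply hne; simp [h0]
      have hu0 : u ≠ 0 := by
        intro h0; apply hne; simp [h0]
      have hu' : u ∈ vals := by
        rcases hu with hu | hu
        · exact absurd hu hu0
        · exact hu
      apply hT j
      refine ⟨u, hu', c⁻¹ * a, mul_ne_zero (inv_ne_zero hc) ha, ?_⟩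
      rw [mul_smul, ← hfa, smul_smul, inv_mul_cancel₀ hc, one_smul]

theorem inv_run (n : ℕ) (C : List Gate) (vals : List (Fin n → ℂ)) (b : ℕ)
    (h : Inv n vals b) : Inv n (run C vals) (b + C.countP Gate.isAddSub) := by
  induction C generalizing vals b with
  | nil => simpa [run] using h
  | cons g gs ih =>
    simp only [run]
    cases g with
    | add i j =>
      have := ih (vals ++ [Gate.eval vals (Gate.add i j)]) (b + 1)
        (inv_step_binary n vals b (vals.getD i 0) (vals.getD j 0) _
          (getD_zero_or_mem vals i) (getD_zero_or_mem vals j)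
          (by
            intro k hk
            by_contra hcon
            rw [not_or, not_not, not_not] at hcon
            apply hk
            show vals.getD i 0 k + vals.getD j 0 k = 0
            rw [hcon.1, hcon.2, add_zero]) h)
      have e : (Gate.add i j :: gs).countP Gate.isAddSub = gs.countP Gate.isAddSub + 1 := by
        simp [List.countP_cons, Gate.isAddSub]
      have e2 : b + (gs.countP Gate.isAddSub + 1) = (b + 1) + gs.countP Gate.isAddSub := by omega
      rw [e, e2]
      exact this
    | sub i j =>
      have := ih (vals ++ [Gate.eval vals (Gate.sub i j)]) (b + 1)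
        (inv_step_binary n vals b (vals.getD i 0) (vals.getD j 0) _
          (getD_zero_or_mem vals i) (getD_zero_or_mem vals j)
          (by
            intro k hk
            by_contra hcon
            rw [not_or, not_not, not_not] at hcon
            apply hk
            show vals.getD i 0 k - vals.getD j 0 k = 0
            rw [hcon.1, hcon.2, sub_zero]) h)
      have e : (Gate.sub i j :: gs).countP Gate.isAddSub = gs.countP Gate.isAddSub + 1 := by
        simp [List.countP_cons, Gate.isAddSub]
      have e2 : b + (gs.countP Gate.isAddSub + 1) = (b + 1) + gs.countP Gate.isAddSub := by omega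
      rw [e, e2]
      exact this
    | smul c i =>
      have := ih (vals ++ [Gate.eval vals (Gate.smul c i)]) b
        (inv_step_scalar n vals b (vals.getD i 0) c (getD_zero_or_mem vals i) h)
      simpa [Gate.isAddSub, List.countP_cons] using this

theorem inv_init (n : ℕ) : Inv n (init n) 0 := by
  classical
  have hmem : ∀ f ∈ init n, f = 0 ∨ ∃ k : Fin n, f = Pi.single k 1 := by
    intro f hf
    unfold init at hf
    rcases List.mem_append.1 hf with hf | hf
    · right
      rw [List.mem_ofFn] at hf
      obtain ⟨k, rfl⟩ := hf
      exact ⟨k, rfl⟩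
    · left
      simpa using hf
  have hmono : ∀ f ∈ init n, Mono (id : Fin n → Fin n) f := by
    intro f hf k l hk hl
    rcases hmem f hf with rfl | ⟨k', rfl⟩
    · exact absurd rfl hk
    · have e1 : k = k' := by
        by_contra hne
        exact hk (by simp [hne])
      have e2 : l = k' := by
        by_contra hne
        exact hl (by simp [hne])
      simp [e1, e2]
  rcases Nat.lt_or_ge 1 n with h1 | h1
  · refine ⟨id, ∅, hmono, ?_, ?_⟩
    · rintro j ⟨f, hf, a, ha, hfa⟩
      exfalso
      rcases hmem f hf with rfl | ⟨k', rfl⟩
      · have := congrFun hfa j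
        simp only [Pi.zero_apply, Pi.smul_apply, smul_eq_mul] at this
        exact mul_ne_zero ha (row_apply_ne_zero n j j) this.symm
      · -- pick a coordinate different from k'
        obtain ⟨l, hl⟩ : ∃ l : Fin n, l ≠ k' := by
          by_cases e : (k' : ℕ) = 0
          · exact ⟨⟨1, h1⟩, fun h => by rw [← h] at e; simp at e⟩
          · exact ⟨⟨0, by omega⟩, fun h => by rw [← h] at e; simp at e⟩
        have := congrFun hfa l
        simp only [Pi.single_apply, hl, if_false, Pi.smul_apply, smul_eq_mul] at this
        exact mul_ne_zero ha (row_apply_ne_zero n j l) this.symm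
    · simp only [image_id, card_univ, Fintype.card_fin, card_empty]
      omega
  · refine ⟨id, univ, hmono, fun j _ => mem_univ j, ?_⟩
    simp only [image_id, card_univ, Fintype.card_fin]
    omega

/-- A circuit computing all rows of `F_n` has at least `2n - 2` addition/subtraction gates. -/
theorem two_mul_le_countP_addSub (n : ℕ) (C : List Gate)
    (h : ∀ j : Fin n, row n j ∈ run C (init n)) :
    2 * n ≤ C.countP Gate.isAddSub + 2 := by
  classical
  obtain ⟨κ, T, hmono, hT, hineq⟩ := inv_run n C (init n) 0 (inv_init n)
  rcases Nat.eq_zero_or_pos n with h0 | hpos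
  · omega
  · have hTu : T = univ := by
      apply Finset.eq_univ_of_forall
      intro j
      exact hT j ⟨row n j, h j, 1, one_ne_zero, (one_smul _ _).symm⟩
    have hcard : (univ.image κ).card ≤ 1 := by
      rw [Finset.card_le_one]
      intro c hc c' hc'
      rw [mem_image] at hc hc'
      obtain ⟨k, _, rfl⟩ := hc
      obtain ⟨l, _, rfl⟩ := hc'
      exact hmono _ (h ⟨0, hpos⟩) k l (row_apply_ne_zero n _ k) (row_apply_ne_zero n _ l)
    rw [hTu] at hineq
    simp only [card_univ, Fintype.card_fin] at hineq
    omega

end Vale.Agent.H92.P344
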