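import Mathlib

/-!
# Linear circuits over the complex numbers (problem P344)

A linear circuit is a finite list of gates.  The nodes of the circuit are numbered
`0, 1, 2, ...`: first the inputs, then the constant `0`, then one node for every gate, in order.
Each gate names the nodes it reads by their numbers.
-/

namespace Vale.Agent.H92.P344

/-- A gate of a linear circuit over `ℂ`: `add i j` computes `u + v`, `sub i j` computes `u - v`
and `smul c i` computes `c * u`, where `u` and `v` are the values of nodes number `i` and `j`. -/
inductive Gate : Type
  | add (i j : ℕ) : Gate
  | sub (i j : ℕ) : Gate
  | smul (c : ℂ) (i : ℕ) : Gate

/-- `true` exactly for the addition and subtraction gates. -/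
def Gate.isAddSub : Gate → Bool
  | Gate.add _ _ => true
  | Gate.sub _ _ => true
  | Gate.smul _ _ => false

/-- `true` exactly for the scalar multiplication gates. -/
def Gate.isSmul : Gate → Bool
  | Gate.add _ _ => false
  | Gate.sub _ _ => false
  | Gate.smul _ _ => true

variable {M : Type*} [AddCommGroup M] [Module ℂ M]

/-- The value computed by a gate, given the list `vals` of the values of all earlier nodes.
A node number past the end of the list reads as the constant `0`. -/
def Gate.eval (vals : List M) : Gate → M
  | Gate.add i j => vals.getD i 0 + vals.getD j 0
  | Gate.sub i j => vals.getD i 0 - vals.getD j 0
  | Gate.smul c i => c • vals.getD i 0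

/-- Run a circuit on the list `vals` of the values of the nodes present so far:
every gate appends the value it computes as a new node.  The result lists the values of all
nodes. -/
def run : List Gate → List M → List M
  | [], vals => vals
  | g :: gs, vals => run gs (vals ++ [g.eval vals])

end Vale.Agent.H92.P344
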