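import Vale.Agent.H92.P344.Binary

/-!
# At least `n - d(n)` scalar gates

All forms computed by a circuit lie in the `ℚ`-span of the coordinate forms and of the outputs of
the scalar gates.  The coordinate forms together with the rows of `F_n` whose index is not
(the residue of) a divisor of `n` are linearly independent over `ℚ`; this uses the Galois
conjugation of roots of unity (irreducibility of cyclotomic polynomials) and Fourier inversion.
-/

namespace Vale.Agent.H92.P344

open Finset Polynomial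

/-- Galois conjugation over `ℚ`: if a rational polynomial takes a rational value at an
`n`-th root of unity `μ`, it takes the same value at `μ ^ u` for every `u` coprime to `n`. -/
theorem aeval_pow_coprime (n : ℕ) (hn : 0 < n) (μ : ℂ) (hμ : μ ^ n = 1)
    (u : ℕ) (hu : u.Coprime n) (p : ℚ[X]) (q : ℚ) (h : aeval μ p = (q : ℂ)) :
    aeval (μ ^ u) p = (q : ℂ) := by
  have hm : orderOf μ ∣ n := orderOf_dvd_of_pow_eq_one hμ
  have hm0 : 0 < orderOf μ := Nat.pos_of_dvd_of_pos hm hn
  have hprim : IsPrimitiveRoot μ (orderOf μ) := IsPrimitiveRoot.orderOf μ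
  have hum : u.Coprime (orderOf μ) := Nat.Coprime.coprime_dvd_right hm hu
  have hprim' : IsPrimitiveRoot (μ ^ u) (orderOf μ) := hprim.pow_of_coprime u hum
  have e1 : minpoly ℚ μ = minpoly ℚ (μ ^ u) := by
    rw [← cyclotomic_eq_minpoly_rat hprim hm0, ← cyclotomic_eq_minpoly_rat hprim' hm0]
  have h0 : aeval μ (p - C q) = 0 := by
    rw [map_sub, h, aeval_C]
    simp
  have hdvd : minpoly ℚ (μ ^ u) ∣ p - C q := by
    rw [← e1]
    exact minpoly.dvd ℚ μ h0
  obtain ⟨r, hr⟩ := hdvd
  have h1 : aeval (μ ^ u) (p - C q) = 0 := by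
    rw [hr, map_mul, minpoly.aeval, zero_mul]
  rw [map_sub, aeval_C] at h1
  have h2 := sub_eq_zero.1 h1
  rw [h2]
  simp

theorem zeta_pow_n (n : ℕ) (hn : 0 < n) : zeta n ^ n = 1 :=
  (zeta_isPrimitiveRoot n hn.ne').pow_eq_one

/-- Orthogonality of characters. -/
theorem sum_zeta_pow (n : ℕ) (hn : 0 < n) (m : ℕ) :
    ∑ k : Fin n, zeta n ^ (m * (k : ℕ)) = if n ∣ m then (n : ℂ) else 0 := by
  have hprim := zeta_isPrimitiveRoot n hn.ne'
  rw [Fin.sum_univ_eq_sum_range (fun k => zeta n ^ (m * k)) n]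
  split_ifs with hd
  · have h1 : zeta n ^ m = 1 := (hprim.pow_eq_one_iff_dvd m).2 hd
    simp [pow_mul, h1]
  · have h1 : zeta n ^ m ≠ 1 := fun h => hd ((hprim.pow_eq_one_iff_dvd m).1 h)
    have h2 : ∑ k ∈ range n, (zeta n ^ m) ^ k = 0 := by
      rw [geom_sum_eq h1, ← pow_mul, mul_comm, pow_mul, zeta_pow_n n hn]
      simp
    simpa [pow_mul] using h2

/-- Fourier inversion, in the form needed below. -/
theorem fourier_coeff (n : ℕ) (hn : 0 < n) (a : Fin n → ℚ) (e : Fin n → ℕ) (m : ℕ) (j0 : Fin n)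
    (he : ∀ j : Fin n, n ∣ (m + e j) ↔ j = j0) :
    ∑ k : Fin n, zeta n ^ (m * (k : ℕ)) * ∑ j : Fin n, (a j : ℂ) * zeta n ^ (e j * (k : ℕ))
      = n * a j0 := by
  have h1 : ∀ k : Fin n, zeta n ^ (m * (k : ℕ)) * ∑ j : Fin n, (a j : ℂ) * zeta n ^ (e j * (k : ℕ))
      = ∑ j : Fin n, (a j : ℂ) * zeta n ^ ((m + e j) * (k : ℕ)) := by
    intro k
    rw [Finset.mul_sum]
    apply Finset.sum_congr rfl
    intro j _
    rw [add_mul, pow_add]
    ring
  simp_rw [h1]
  rw [Finset.sum_comm]
  simp_rw [← Finset.mul_sum, sum_zeta_pow n hn]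
  rw [Finset.sum_eq_single j0]
  · rw [if_pos ((he j0).2 rfl)]
    ring
  · intro j _ hj
    rw [if_neg (fun h => hj ((he j).1 h))]
    ring
  · intro h; exact absurd (Finset.mem_univ j0) h

theorem dvd_sub_add_iff (n : ℕ) (j l : Fin n) : n ∣ (n - (l : ℕ)) + (j : ℕ) ↔ j = l := by
  constructor
  · intro h
    have hj := j.isLt
    have hl := l.isLt
    have : n - (l : ℕ) + (j : ℕ) = n :=
      Nat.eq_of_dvd_of_lt_two_mul (by omega) h (by omega)
    exact Fin.ext (by omega)
  · rintro rfl
    have hj := j.isLt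
    have : n - (j : ℕ) + (j : ℕ) = n := by omega
    rw [this]

theorem dvd_sub_add_mul_iff (n : ℕ) (u : ℕ) (hu : u.Coprime n) (j j0 : Fin n) :
    n ∣ (n - (u * (j0 : ℕ)) % n) + u * (j : ℕ) ↔ j = j0 := by
  have hn : 0 < n := Nat.pos_of_ne_zero (fun h0 => by subst h0; exact j.elim0)
  have hr : (u * (j0 : ℕ)) % n < n := Nat.mod_lt _ hn
  constructor
  · intro h
    have e1 : (n - (u * (j0 : ℕ)) % n) + u * (j : ℕ) ≡ 0 [MOD n] := (Nat.modEq_zero_iff_dvd).2 h
    have e2 := e1.add_right ((u * (j0 : ℕ)) % n)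
    have e3 : (n - (u * (j0 : ℕ)) % n) + u * (j : ℕ) + (u * (j0 : ℕ)) % n = u * (j : ℕ) + n := by
      omega
    rw [e3, zero_add] at e2
    have e4 : u * (j : ℕ) ≡ u * (j0 : ℕ) [MOD n] :=
      ((Nat.add_modEq_right).symm.trans e2).trans (Nat.mod_modEq _ _)
    have e5 : (j : ℕ) ≡ (j0 : ℕ) [MOD n] :=
      Nat.ModEq.cancel_left_of_coprime (by rw [Nat.gcd_comm]; exact hu) e4
    exact Fin.ext (Nat.ModEq.eq_of_lt_of_lt e5 j.isLt j0.isLt)
  · rintro rfl
    have := Nat.div_add_mod (u * (j : ℕ)) n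
    refine ⟨u * (j : ℕ) / n + 1, ?_⟩
    rw [mul_add, mul_one]
    omega

/-- Invariance under the Galois action: if all the values `∑ j, a j ζ^{jk}` are rational, then
`a` is constant on the orbits of multiplication by units modulo `n`. -/
theorem orbit_invariant (n : ℕ) (hn : 0 < n) (a q : Fin n → ℚ)
    (h : ∀ k : Fin n, ∑ j : Fin n, (a j : ℂ) * zeta n ^ ((j : ℕ) * (k : ℕ)) = q k)
    (u : ℕ) (hu : u.Coprime n) (j0 : Fin n) :
    a ⟨(u * (j0 : ℕ)) % n, Nat.mod_lt _ hn⟩ = a j0 := by
  -- the conjugated identities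
  have h' : ∀ k : Fin n, ∑ j : Fin n, (a j : ℂ) * zeta n ^ ((u * (j : ℕ)) * (k : ℕ)) = q k := by
    intro k
    have hμ : (zeta n ^ (k : ℕ)) ^ n = 1 := by
      rw [← pow_mul, mul_comm, pow_mul, zeta_pow_n n hn, one_pow]
    have key := aeval_pow_coprime n hn (zeta n ^ (k : ℕ)) hμ u hu
      (∑ j : Fin n, C (a j) * X ^ (j : ℕ)) (q k) (by
        rw [map_sum, ← h k]
        apply Finset.sum_congr rfl
        intro j _
        simp only [map_mul, aeval_C, map_pow, aeval_X]
        rw [← pow_mul, mul_comm (k : ℕ)]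
        rfl)
    rw [← key, map_sum]
    apply Finset.sum_congr rfl
    intro j _
    simp only [map_mul, aeval_C, map_pow, aeval_X]
    rw [← pow_mul, ← pow_mul]
    congr 2
    ring
  set l : Fin n := ⟨(u * (j0 : ℕ)) % n, Nat.mod_lt _ hn⟩ with hl
  have f1 := fourier_coeff n hn a (fun j => (j : ℕ)) (n - (l : ℕ)) l
    (fun j => dvd_sub_add_iff n j l)
  have f2 := fourier_coeff n hn a (fun j => u * (j : ℕ)) (n - (l : ℕ)) j0
    (fun j => dvd_sub_add_mul_iff n u hu j j0)
  simp only [h] at f1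
  simp only [h'] at f2
  rw [f1] at f2
  have hn' : (n : ℂ) ≠ 0 := Nat.cast_ne_zero.2 hn.ne'
  have := mul_left_cancel₀ hn' f2
  exact_mod_cast this

theorem exists_coprime_modEq (n m : ℕ) (hm : 0 < m) (h : n ∣ m) (x : ℕ) (hx : x.Coprime n) :
    ∃ u : ℕ, u.Coprime m ∧ u ≡ x [MOD n] := by
  have : NeZero m := ⟨hm.ne'⟩
  obtain ⟨w, hw⟩ := ZMod.unitsMap_surjective h (ZMod.unitOfCoprime x hx)
  refine ⟨(w : ZMod m).val, ZMod.val_coe_unit_coprime w, ?_⟩
  rw [← ZMod.natCast_eq_natCast_iff]
  have := congrArg (fun z : (ZMod n)ˣ => (z : ZMod n)) hw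
  simp only [ZMod.unitsMap_val, ZMod.coe_unitOfCoprime] at this
  rw [← this, ZMod.natCast_val]

theorem exists_coprime_mul_gcd (n j : ℕ) (hn : 0 < n) (hj : j < n) :
    ∃ u : ℕ, u.Coprime n ∧ (u * (Nat.gcd j n % n)) % n = j := by
  rcases Nat.eq_zero_or_pos j with h0 | hpos
  · subst h0
    refine ⟨1, Nat.coprime_one_left n, ?_⟩
    simp
  · have hg_pos : 0 < Nat.gcd j n := Nat.gcd_pos_of_pos_left n hpos
    have hgj : Nat.gcd j n ∣ j := Nat.gcd_dvd_left j n
    have hgn : Nat.gcd j n ∣ n := Nat.gcd_dvd_right j n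
    have hg_lt : Nat.gcd j n < n := lt_of_le_of_lt (Nat.le_of_dvd hpos hgj) hj
    have hcop : (j / Nat.gcd j n).Coprime (n / Nat.gcd j n) := Nat.coprime_div_gcd_div_gcd hg_pos
    obtain ⟨u, hu, hmod⟩ := exists_coprime_modEq (n / Nat.gcd j n) n hn
      (Nat.div_dvd_of_dvd hgn) (j / Nat.gcd j n) hcop
    refine ⟨u, hu, ?_⟩
    rw [Nat.mod_eq_of_lt hg_lt]
    have h2 := Nat.ModEq.mul_right' (Nat.gcd j n) hmod
    rw [Nat.div_mul_cancel hgn, Nat.div_mul_cancel hgj] at h2
    have h3 : (u * Nat.gcd j n) % n = j % n := h2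
    rw [h3, Nat.mod_eq_of_lt hj]

/-- If all the values `∑ j, a j ζ^{jk}` are rational and `a` vanishes at the residues of the
divisors of `n`, then `a = 0`. -/
theorem coeffs_zero (n : ℕ) (hn : 0 < n) (a q : Fin n → ℚ)
    (h : ∀ k : Fin n, ∑ j : Fin n, (a j : ℂ) * zeta n ^ ((j : ℕ) * (k : ℕ)) = q k)
    (hrep : ∀ d ∈ Nat.divisors n, a ⟨d % n, Nat.mod_lt _ hn⟩ = 0) :
    a = 0 := by
  funext j
  obtain ⟨u, hu, hmod⟩ := exists_coprime_mul_gcd n j hn j.isLt
  have hd : Nat.gcd j n ∈ Nat.divisors n := Nat.mem_divisors.2 ⟨Nat.gcd_dvd_right _ _, hn.ne'⟩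
  have h1 := orbit_invariant n hn a q h u hu ⟨Nat.gcd j n % n, Nat.mod_lt _ hn⟩
  rw [hrep _ hd] at h1
  have e : (⟨(u * (Nat.gcd j n % n)) % n, Nat.mod_lt _ hn⟩ : Fin n) = j := Fin.ext hmod
  rw [← e]
  exact h1

/-- The residues modulo `n` of the divisors of `n`. -/
noncomputable def reps (n : ℕ) (hn : 0 < n) : Finset (Fin n) :=
  (Nat.divisors n).image (fun d => (⟨d % n, Nat.mod_lt _ hn⟩ : Fin n))

theorem card_reps_le (n : ℕ) (hn : 0 < n) : (reps n hn).card ≤ (Nat.divisors n).card :=
  Finset.card_image_le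

/-- The coordinate forms, followed by the rows of `F_n` whose index is not in `reps`. -/
noncomputable def fam (n : ℕ) (hn : 0 < n) : Fin n ⊕ ↥(reps n hn)ᶜ → (Fin n → ℂ) :=
  Sum.elim (fun k => Pi.single k 1) (fun j => row n (j : Fin n))

theorem fam_linearIndependent (n : ℕ) (hn : 0 < n) : LinearIndependent ℚ (fam n hn) := by
  classical
  rw [Fintype.linearIndependent_iff]
  intro g hg
  rw [Fintype.sum_sum_type] at hg
  -- the coefficient vector of the rows, extended by zero
  set a : Fin n → ℚ := fun j => if hj : j ∈ (reps n hn)ᶜ then g (Sum.inr ⟨j, hj⟩) else 0 with ha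
  set q : Fin n → ℚ := fun k => - g (Sum.inl k) with hq
  have hga : ∀ i : ↥(reps n hn)ᶜ, g (Sum.inr i) = a (i : Fin n) := by
    intro i
    simp only [ha, dif_pos i.2]
  have key : ∀ k : Fin n, ∑ j : Fin n, (a j : ℂ) * zeta n ^ ((j : ℕ) * (k : ℕ)) = q k := by
    intro k
    have h1 := congrFun hg k
    simp only [fam, Sum.elim_inl, Sum.elim_inr, Pi.add_apply, Finset.sum_apply, Pi.smul_apply,
      Pi.zero_apply] at h1
    have h2 : ∑ c : Fin n, g (Sum.inl c) • (Pi.single c 1 : Fin n → ℂ) k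
        = (g (Sum.inl k) : ℂ) := by
      rw [Finset.sum_eq_single k]
      · simp [Rat.smul_def]
      · intro b _ hb
        simp [hb.symm]
      · intro hk; exact absurd (Finset.mem_univ k) hk
    have h3 : ∑ c : ↥(reps n hn)ᶜ, g (Sum.inr c) • row n (c : Fin n) k
        = ∑ j : Fin n, (a j : ℂ) * zeta n ^ ((j : ℕ) * (k : ℕ)) := by
      have e1 : ∀ c : ↥(reps n hn)ᶜ, g (Sum.inr c) • row n (c : Fin n) k
          = (fun j : Fin n => (a j : ℂ) * zeta n ^ ((j : ℕ) * (k : ℕ))) (c : Fin n) := by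
        intro c
        rw [hga c, Rat.smul_def]
        rfl
      rw [Finset.sum_congr rfl (fun c _ => e1 c)]
      rw [Finset.sum_coe_sort (reps n hn)ᶜ
        (fun j : Fin n => (a j : ℂ) * zeta n ^ ((j : ℕ) * (k : ℕ)))]
      apply Finset.sum_subset (Finset.subset_univ _)
      intro j _ hj
      simp only [ha, dif_neg hj, Rat.cast_zero, zero_mul]
    rw [h2, h3] at h1
    rw [hq]
    push_cast
    linear_combination h1
  have ha0 : a = 0 := by
    apply coeffs_zero n hn a q key
    intro d hd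
    have hmem : (⟨d % n, Nat.mod_lt _ hn⟩ : Fin n) ∈ reps n hn :=
      Finset.mem_image.2 ⟨d, hd, rfl⟩
    have hnot : (⟨d % n, Nat.mod_lt _ hn⟩ : Fin n) ∉ (reps n hn)ᶜ := by
      simpa using hmem
    simp only [ha, dif_neg hnot]
  have hq0 : ∀ k, q k = 0 := by
    intro k
    have := key k
    rw [ha0] at this
    simp only [Pi.zero_apply, Rat.cast_zero, zero_mul, Finset.sum_const_zero] at this
    exact_mod_cast this.symm
  rintro (k | i)
  · have := hq0 k
    simp only [hq, neg_eq_zero] at this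
    exact this
  · rw [hga i, ha0]
    rfl

/-- The invariant of the dimension argument: all forms computed so far lie in the `ℚ`-span of a
finite set with at most `n + s` elements. -/
def SpanInv (n : ℕ) (vals : List (Fin n → ℂ)) (s : ℕ) : Prop :=
  ∃ G : Finset (Fin n → ℂ), G.card ≤ n + s ∧
    ∀ f ∈ vals, f ∈ Submodule.span ℚ (G : Set (Fin n → ℂ))

theorem spanInv_init (n : ℕ) : SpanInv n (init n) 0 := by
  classical
  refine ⟨univ.image (fun k : Fin n => (Pi.single k 1 : Fin n → ℂ)), ?_, ?_⟩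
  · calc (univ.image (fun k : Fin n => (Pi.single k 1 : Fin n → ℂ))).card
        ≤ (univ : Finset (Fin n)).card := Finset.card_image_le
      _ = n + 0 := by simp
  · intro f hf
    unfold init at hf
    rcases List.mem_append.1 hf with hf | hf
    · rw [List.mem_ofFn] at hf
      obtain ⟨k, rfl⟩ := hf
      apply Submodule.subset_span
      simp
    · have : f = 0 := by simpa using hf
      rw [this]
      exact Submodule.zero_mem _

theorem getD_mem_span {n : ℕ} (vals : List (Fin n → ℂ)) (G : Finset (Fin n → ℂ))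
    (h : ∀ f ∈ vals, f ∈ Submodule.span ℚ (G : Set (Fin n → ℂ))) (i : ℕ) :
    vals.getD i 0 ∈ Submodule.span ℚ (G : Set (Fin n → ℂ)) := by
  rcases getD_zero_or_mem vals i with h0 | h0
  · rw [h0]; exact Submodule.zero_mem _
  · exact h _ h0

theorem spanInv_run (n : ℕ) (C : List Gate) (vals : List (Fin n → ℂ)) (s : ℕ)
    (h : SpanInv n vals s) : SpanInv n (run C vals) (s + C.countP Gate.isSmul) := by
  classical
  induction C generalizing vals s with
  | nil => simpa [run] using h
  | cons g gs ih =>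
    simp only [run]
    obtain ⟨G, hG, hspan⟩ := h
    cases g with
    | add i j =>
      have e : (Gate.add i j :: gs).countP Gate.isSmul = gs.countP Gate.isSmul := by
        simp [Gate.isSmul]
      rw [e]
      apply ih
      refine ⟨G, hG, ?_⟩
      intro f hf
      rcases List.mem_append.1 hf with hf | hf
      · exact hspan f hf
      · rw [List.mem_singleton] at hf
        subst hf
        exact Submodule.add_mem _ (getD_mem_span vals G hspan i) (getD_mem_span vals G hspan j)
    | sub i j =>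
      have e : (Gate.sub i j :: gs).countP Gate.isSmul = gs.countP Gate.isSmul := by
        simp [Gate.isSmul]
      rw [e]
      apply ih
      refine ⟨G, hG, ?_⟩
      intro f hf
      rcases List.mem_append.1 hf with hf | hf
      · exact hspan f hf
      · rw [List.mem_singleton] at hf
        subst hf
        exact Submodule.sub_mem _ (getD_mem_span vals G hspan i) (getD_mem_span vals G hspan j)
    | smul c i =>
      have e : (Gate.smul c i :: gs).countP Gate.isSmul = gs.countP Gate.isSmul + 1 := by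
        simp [List.countP_cons, Gate.isSmul]
      have e2 : s + (gs.countP Gate.isSmul + 1) = (s + 1) + gs.countP Gate.isSmul := by omega
      rw [e, e2]
      apply ih
      refine ⟨insert (Gate.eval vals (Gate.smul c i)) G, ?_, ?_⟩
      · have := Finset.card_insert_le (Gate.eval vals (Gate.smul c i)) G
        omega
      · intro f hf
        rcases List.mem_append.1 hf with hf | hf
        · exact Submodule.span_mono (by simp) (hspan f hf)
        · rw [List.mem_singleton] at hf
          subst hf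
          apply Submodule.subset_span
          simp

/-- A circuit computing all rows of `F_n` has at least `n - d(n)` scalar gates. -/
theorem le_countP_smul_add_divisors (n : ℕ) (C : List Gate)
    (h : ∀ j : Fin n, row n j ∈ run C (init n)) :
    n ≤ C.countP Gate.isSmul + (Nat.divisors n).card := by
  classical
  rcases Nat.eq_zero_or_pos n with h0 | hn
  · omega
  · obtain ⟨G, hG, hspan⟩ := spanInv_run n C (init n) 0 (spanInv_init n)
    have hsub : Set.range (fam n hn) ≤ Submodule.span ℚ (G : Set (Fin n → ℂ)) := by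
      rintro f ⟨i, rfl⟩
      rcases i with k | j
      · apply hspan
        apply subset_run
        unfold init
        apply List.mem_append_left
        rw [List.mem_ofFn]
        exact ⟨k, rfl⟩
      · exact hspan _ (h j)
    have h1 := linearIndependent_le_span_aux' (fam n hn) (fam_linearIndependent n hn)
      (G : Set (Fin n → ℂ)) hsub
    simp only [Fintype.card_sum, Fintype.card_fin, Finset.coe_sort_coe, Fintype.card_coe,
      Finset.card_compl] at h1
    have h2 := card_reps_le n hn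
    omega

end Vale.Agent.H92.P344
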